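import Vale.Agent.P181.MD.H514.DefsD

set_option autoImplicit false

/-!
# P181, MD+ [P2-num]: the real inequality
-/

namespace Vale.Agent.P181.MD.H752

open Vale.Agent.P181.MD.H514

/-- `L = log b`, `la = log a`, `T = log (1 + N / (b - 2))`, `X = log x`. -/
theorem core {δ κ A B l L la R T X l2 : ℝ} (hδ : 0 < δ) (hκ : 0 < κ) (hκ1 : κ ≤ 1 / 80)
    (hκδ : κ ≤ δ / 80) (hA : 0 < A) (hAB : (1 + δ) * A ≤ B) (hl : 1 ≤ l) (hR : 0 ≤ R)
    (hRA : R ^ 2 ≤ A) (hla : 150 + 300 / δ ≤ la) (hlaA : 45000 ≤ δ ^ 2 * A) (hdA : 300 ≤ δ * A)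
    (hL : la ≤ L) (h51 : 50 * L ≤ 51 * la) (hlog : A * (L - la) ≤ B - A) (h2' : l2 ≤ 1) (hT : 3 / 5 * L ≤ T) (hX : (2 - κ) * la ≤ X) :
    (A + B) * l2 + l * A * l2 + 2 * B * l2 + B * (l2 + la + L) + 2 * B * L ≤
      l * (B - 2 - A) * T + (2 * B - 3 - 2 * R) * X := by
  set β := B - A with hβ
  have hB : B = A + β := by rw [hβ]; ring
  have hdel : 0 < 300 / δ := by positivity
  have hla0 : 0 < la := by linarith
  have hL0 : 0 < L := by linarith
  have hβδ : δ * A ≤ β := by
    rw [hβ]
    linarith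
  have hβ0 : 300 ≤ β := hdA.trans hβδ
  have hL50 : 50 ≤ L := by linarith
  have hl0 : 0 < l := by linarith
  -- `A ≤ β / δ`
  have hAβ : A ≤ β * (1 / δ) := by
    rw [mul_one_div, le_div_iff₀ hδ]
    linarith
  have h1δ : 0 < 1 / δ := by positivity
  have hB0 : 0 < B := by rw [hB]; linarith
  have h1 : l * (B - 2 - A) * (3 / 5 * L) ≤ l * (B - 2 - A) * T := by
    apply mul_le_mul_of_nonneg_left hT
    apply mul_nonneg hl0.le
    rw [hB]
    linarith
  have hRs : R ≤ δ * A / 160 := by
    by_contra h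
    rw [not_le] at h
    have h3 : (δ * A / 160) ^ 2 < R ^ 2 := by
      apply pow_lt_pow_left₀ h (by positivity) (by norm_num)
    have h4 : A ≤ (δ * A / 160) ^ 2 := by
      have h5 : (δ * A / 160) ^ 2 = δ ^ 2 * A * A / 25600 := by ring
      rw [h5, le_div_iff₀ (by norm_num)]
      have := mul_le_mul_of_nonneg_right hlaA hA.le
      linarith
    linarith
  have hRβ : 6 + 4 * R ≤ 1 / 20 * β := by linarith
  have h3' : 0 ≤ 2 * B - 3 - 2 * R := by
    rw [hB]
    linarith
  have h2a : (2 * B - 3 - 2 * R) * ((2 - κ) * la) ≤ (2 * B - 3 - 2 * R) * X :=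
    mul_le_mul_of_nonneg_left hX h3'
  have h3 : 4 * (B * la) - 2 * (κ * (B * la)) - (6 + 4 * R) * la ≤
      (2 * B - 3 - 2 * R) * ((2 - κ) * la) := by
    have h4 : (2 * B - 3 - 2 * R) * ((2 - κ) * la) = 4 * (B * la) - 2 * (κ * (B * la)) -
        (6 + 4 * R) * la + κ * la * (3 + 2 * R) := by ring
    rw [h4]
    have : 0 ≤ κ * la * (3 + 2 * R) := by positivity
    linarith
  have hβL : 0 < β * L := by positivity
  -- the main error
  have h4 : 3 * (B * (L - la)) ≤ 12 / 100 * (β * L) := by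
    by_cases hc : B ≤ 2 * A
    · have h5 : B * (L - la) ≤ 2 * (A * (L - la)) := by
        have := mul_le_mul_of_nonneg_right hc (sub_nonneg.2 hL)
        linarith
      have h6 : β * 50 ≤ β * L := mul_le_mul_of_nonneg_left hL50 (by linarith)
      linarith
    · rw [not_le] at hc
      have h5 : L - la ≤ 1 / 50 * L := by linarith
      have h6 : B * (L - la) ≤ (2 * β) * (1 / 50 * L) := by
        apply mul_le_mul _ h5 (sub_nonneg.2 hL) (by linarith)
        rw [hβ]
        linarith
      linarith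
  have h5 : 2 * (κ * (B * la)) ≤ 1 / 20 * (β * L) := by
    have h6 : κ * B ≤ 1 / 40 * β := by
      have h7 : κ * A ≤ 1 / 80 * β := by
        calc κ * A ≤ δ / 80 * A := mul_le_mul_of_nonneg_right hκδ hA.le
          _ = 1 / 80 * (δ * A) := by ring
          _ ≤ 1 / 80 * β := by linarith
      have h8 : κ * β ≤ 1 / 80 * β := mul_le_mul_of_nonneg_right hκ1 (by linarith)
      rw [hB, mul_add]
      linarith
    have h7 : κ * B * la ≤ 1 / 40 * β * L :=
      mul_le_mul h6 hL hla0.le (by positivity)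
    have h8 : κ * (B * la) = κ * B * la := by ring
    rw [h8]
    linarith
  have h6 : (6 + 4 * R) * la ≤ 1 / 20 * (β * L) := by
    have := mul_le_mul hRβ hL hla0.le (by positivity : (0:ℝ) ≤ 1 / 20 * β)
    linarith
  have h7 : (A + 4 * B) * l2 ≤ 1 / 20 * (β * L) := by
    have h8 : (A + 4 * B) * l2 ≤ A + 4 * B := by
      have := mul_le_mul_of_nonneg_left h2' (by positivity : (0:ℝ) ≤ A + 4 * B)
      linarith
    have h9 : A + 4 * B ≤ β * (5 * (1 / δ) + 4) := by
      rw [hB]
      have : β * (5 * (1 / δ) + 4) = 5 * (β * (1 / δ)) + 4 * β := by ring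
      linarith
    have h10 : 5 * (1 / δ) + 4 ≤ 1 / 20 * L := by
      have : 300 / δ = 300 * (1 / δ) := by ring
      linarith
    have h11 := mul_le_mul_of_nonneg_left h10 (by linarith : (0:ℝ) ≤ β)
    linarith
  have h8 : l * A * l2 ≤ 1 / 20 * (l * (β * L)) := by
    have h9 : A * l2 ≤ 1 / 20 * (β * L) := by
      have h10 : A * l2 ≤ A := by
        have := mul_le_mul_of_nonneg_left h2' hA.le
        linarith
      have h11 : 1 / δ ≤ 1 / 20 * L := by
        have : 300 / δ = 300 * (1 / δ) := by ring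
        linarith
      have h12 := mul_le_mul_of_nonneg_left h11 (by linarith : (0:ℝ) ≤ β)
      linarith
    have := mul_le_mul_of_nonneg_left h9 hl0.le
    linarith
  have h9 : 6 / 5 * (l * L) ≤ 1 / 20 * (l * (β * L)) := by
    have h10 : 24 * L ≤ β * L := mul_le_mul_of_nonneg_right (by linarith) hL0.le
    have := mul_le_mul_of_nonneg_left h10 hl0.le
    linarith
  have h10 : β * L ≤ l * (β * L) := by
    have := mul_le_mul_of_nonneg_right hl hβL.le
    linarith
  have e1 : l * (B - 2 - A) * (3 / 5 * L) = 3 / 5 * (l * (β * L)) - 6 / 5 * (l * L) := by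
    rw [hβ]
    ring
  have e2 : (A + B) * l2 + l * A * l2 + 2 * B * l2 + B * (l2 + la + L) + 2 * B * L =
      (A + 4 * B) * l2 + l * A * l2 + B * la + 3 * (B * L) := by ring
  have e3 : 3 * (B * (L - la)) = 3 * (B * L) - 3 * (B * la) := by ring
  rw [e2]
  rw [e1] at h1
  rw [e3] at h4
  linarith

/-- **[P2-num]** -/
theorem numD : NumD := by
  intro δ hδ
  obtain ⟨κ, hκ, hκ1, hκδ⟩ : ∃ κ : ℝ, 0 < κ ∧ κ ≤ 1 / 80 ∧ κ ≤ δ / 80 :=
    ⟨min (1 / 80) (δ / 80), lt_min (by norm_num) (by positivity), min_le_left _ _,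
      min_le_right _ _⟩
  refine ⟨κ, ⌈Real.exp (150 + 300 / δ)⌉₊, hκ, by linarith, ?_⟩
  intro a b l N R x ha hab h50 hl hN hR hx
  have hdel : 0 < 300 / δ := by positivity
  have hexp : Real.exp (150 + 300 / δ) ≤ a := (Nat.le_ceil _).trans (Nat.cast_le.2 ha)
  have haR : (0 : ℝ) < a := (Real.exp_pos _).trans_le hexp
  have hla : 150 + 300 / δ ≤ Real.log a := by
    rw [Real.le_log_iff_exp_le haR]
    exact hexp
  have hq := Real.quadratic_le_exp_of_nonneg (x := 150 + 300 / δ) (by positivity)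
  have hdA : 300 ≤ δ * a := by
    have h1 : 300 / δ ≤ a := by
      have : 0 ≤ (150 + 300 / δ) ^ 2 / 2 := by positivity
      linarith
    rw [div_le_iff₀ hδ] at h1
    linarith
  have hlaA : 45000 ≤ δ ^ 2 * a := by
    have h1 : (300 / δ) ^ 2 / 2 ≤ a := by
      have h2 : (300 / δ) ^ 2 ≤ (150 + 300 / δ) ^ 2 := by
        apply pow_le_pow_left₀ hdel.le
        linarith
      have : 0 ≤ 150 + 300 / δ := by positivity
      linarith
    have h3 : (300 / δ) ^ 2 / 2 = 45000 / δ ^ 2 := by
      field_simp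
      norm_num
    rw [h3, div_le_iff₀ (by positivity)] at h1
    linarith
  have hβ : (a : ℝ) + 300 ≤ b := by linarith
  have hβN : a + 300 ≤ b := by exact_mod_cast hβ
  have hbR : (0 : ℝ) < b := by linarith
  have haN : 0 < a := by exact_mod_cast haR
  have hbN : 0 < b := by exact_mod_cast hbR
  have hb2 : ((b - 2 : ℕ) : ℝ) = b - 2 := by
    rw [Nat.cast_sub (by omega)]
    norm_num
  have hb2a : ((b - 2 - a : ℕ) : ℝ) = b - 2 - a := by
    rw [Nat.cast_sub (by omega), hb2]
  have hRa : R ≤ a := by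
    by_contra h
    rw [not_le] at h
    nlinarith
  have hbR2 : ((2 * b - 3 - 2 * R : ℕ) : ℝ) = 2 * b - 3 - 2 * R := by
    rw [Nat.cast_sub (by omega), Nat.cast_sub (by omega)]
    push_cast
    ring
  have hN0 : (0 : ℝ) < N := by
    rcases Nat.eq_zero_or_pos N with h | h
    · rw [h, zero_pow (by norm_num)] at hN
      have : 0 < b ^ 8 := by positivity
      omega
    · exact_mod_cast h
  have hx0 : (0 : ℝ) < x := (Real.rpow_pos_of_pos haR _).trans_le hx
  have hxN : 0 < x := by exact_mod_cast hx0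
  have hX : (2 - κ) * Real.log a ≤ Real.log x := by
    rw [← Real.log_rpow haR]
    exact Real.log_le_log (Real.rpow_pos_of_pos haR _) hx
  have hLb : Real.log a ≤ Real.log b := Real.log_le_log haR (by linarith)
  have h51 : 50 * Real.log b ≤ 51 * Real.log a := by
    have h1 : ((b : ℝ)) ^ 50 ≤ (a : ℝ) ^ 51 := by exact_mod_cast h50
    have h2 := Real.log_le_log (by positivity) h1
    rw [Real.log_pow, Real.log_pow] at h2
    exact_mod_cast h2
  have hb2pos : (0 : ℝ) < (b : ℝ) - 2 := by linarith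
  have hT : 3 / 5 * Real.log b ≤ Real.log (1 + (N : ℝ) / ((b : ℝ) - 2)) := by
    have h1 : ((b : ℝ)) ^ 8 ≤ (N : ℝ) ^ 5 := by exact_mod_cast hN
    have h2 := Real.log_le_log (by positivity) h1
    rw [Real.log_pow, Real.log_pow] at h2
    push_cast at h2
    have h3 : (N : ℝ) / b ≤ 1 + (N : ℝ) / ((b : ℝ) - 2) := by
      have : (N : ℝ) / b ≤ (N : ℝ) / ((b : ℝ) - 2) :=
        div_le_div_of_nonneg_left hN0.le hb2pos (by linarith)
      linarith
    have h4 := Real.log_le_log (by positivity) h3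
    rw [Real.log_div hN0.ne' hbR.ne'] at h4
    linarith
  have hlog : (a : ℝ) * (Real.log b - Real.log a) ≤ b - a := by
    rw [← Real.log_div hbR.ne' haR.ne']
    have h1 := Real.log_le_sub_one_of_pos (x := (b : ℝ) / a) (by positivity)
    have h2 := mul_le_mul_of_nonneg_left h1 haR.le
    have h3 : (a : ℝ) * (b / a - 1) = b - a := by
      field_simp
    linarith
  have h2' : Real.log 2 ≤ 1 := by
    have := Real.log_two_lt_d9
    linarith
  have hc := core (δ := δ) (κ := κ) (A := a) (B := b) (l := l) (L := Real.log b)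
    (la := Real.log a) (R := R) (T := Real.log (1 + (N : ℝ) / ((b : ℝ) - 2)))
    (X := Real.log x) (l2 := Real.log 2) hδ hκ hκ1 hκδ haR hab (by exact_mod_cast hl)
    (Nat.cast_nonneg R) (by exact_mod_cast hR) hla hlaA hdA hLb h51 hlog h2' hT hX
  have hch : (((a + b).choose a : ℕ) : ℝ) ≤ 2 ^ (a + b) := by
    exact_mod_cast Nat.choose_le_two_pow (a + b) a
  have hU : (0 : ℝ) < 1 + (N : ℝ) / ((b : ℝ) - 2) := by positivity
  rw [hb2]
  calc (((a + b).choose a : ℕ) : ℝ) * 2 ^ (l * a) * 2 ^ (2 * b) * (2 * a * b : ℝ) ^ b *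
        (b : ℝ) ^ (2 * b)
      ≤ 2 ^ (a + b) * 2 ^ (l * a) * 2 ^ (2 * b) * (2 * a * b : ℝ) ^ b * (b : ℝ) ^ (2 * b) := by
        gcongr
    _ ≤ _ := by
        rw [← Real.log_le_log_iff (by positivity) (by positivity),
          Real.log_mul (by positivity) (by positivity),
          Real.log_mul (by positivity) (by positivity),
          Real.log_mul (by positivity) (by positivity),
          Real.log_mul (by positivity) (by positivity),
          Real.log_mul (by positivity) (by positivity), Real.log_pow, Real.log_pow, Real.log_pow,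
          Real.log_pow, Real.log_pow, Real.log_pow, Real.log_pow,
          Real.log_mul (by positivity) hbR.ne', Real.log_mul (by norm_num) haR.ne', hbR2]
        push_cast
        rw [hb2a]
        linarith

end Vale.Agent.P181.MD.H752
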