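import Vale.Agent.P181.MD.Spec
import Vale.Agent.P181.MR.H312.Half

set_option autoImplicit false

/-!
# P181, MD [REM]: removing `N` columns of length `m`
-/

namespace Vale.Agent.P181.MD.H752

open Vale.Agent.P181.H463 (gt)

/-- **[MD-REM]** -/
theorem rem : RemStmt := by
  intro n a m N lam η hna hmn hlam hη hl hgap
  have hex : ∀ j : Fin n, m ≤ (j : ℕ) → lam j ≤ T4.ex lam m := by
    intro j hj
    have hm : m < n := lt_of_le_of_lt hj j.2
    unfold T4.ex
    rw [dif_pos hm]
    exact hlam (show (⟨m, hm⟩ : Fin n) ≤ j from hj)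
  refine MR.H312.half n m a N lam η hη hmn hna (fun i => by rw [← hl i, add_comm]) fun i hi => ?_
  have h1 := hgap i hi
  have h2 := hl i
  rw [if_pos hi] at h2
  refine ⟨by omega, fun j hj => ?_⟩
  have h3 := hl j
  rw [if_neg (by omega), zero_add] at h3
  have h4 := hex j hj
  omega

end Vale.Agent.P181.MD.H752
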